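import Vale.Agent.P022.H619.L3.Val

/-!
# P022-L3, chapter G, [VAL]: the Gauss valuation of a series with non constant reduction (helper619)
-/

open Polynomial IsLocalRing

namespace Vale.Agent.P022.H619.L3

section Transc

variable {k : Type*} [Field k]

theorem algebraMap_eq : algebraMap k (LaurentSeries k) = HahnSeries.C := by
  ext1 a
  rw [LaurentSeries.algebraMap_apply]

theorem aeval_ne_zero_pos {r : LaurentSeries k} (hr : r ≠ 0) (h : 0 < r.order)
    {R : Polynomial k} (hR : R ≠ 0) : Polynomial.aeval r R ≠ 0 := by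
  obtain ⟨n, hn⟩ := Int.eq_ofNat_of_zero_le h.le
  have hn0 : n ≠ 0 := by
    rintro rfl
    rw [hn] at h
    exact lt_irrefl _ h
  let q : PowerSeries k := PowerSeries.X ^ n * r.powerSeriesPart
  have hq : (q : LaurentSeries k) = r := LaurentSeries.X_order_mul_powerSeriesPart hn.symm
  have hq0 : PowerSeries.constantCoeff q = 0 := by
    simp [q, hn0]
  obtain ⟨m, R', hR', hR0⟩ : ∃ (m : ℕ) (R' : Polynomial k), R = Polynomial.X ^ m * R' ∧
      R'.coeff 0 ≠ 0 := by
    obtain ⟨R', h1, h2⟩ := Polynomial.exists_eq_pow_rootMultiplicity_mul_and_not_dvd R hR 0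
    rw [Polynomial.C_0, sub_zero] at h1 h2
    exact ⟨_, R', h1, fun h3 => h2 (Polynomial.X_dvd_iff.mpr h3)⟩
  have h1 : Polynomial.aeval r R' ≠ 0 := by
    intro h2
    have h3 : Polynomial.aeval r R' = ((Polynomial.aeval q R' : PowerSeries k) :
        LaurentSeries k) := by
      rw [← hq]
      have := Polynomial.hom_eval₂ R' (algebraMap k (PowerSeries k))
        (HahnSeries.ofPowerSeries ℤ k) q
      rw [Polynomial.aeval_def, Polynomial.aeval_def, this]
      congr 1
    rw [h3] at h2
    have h4 : Polynomial.aeval q R' = 0 := by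
      apply HahnSeries.ofPowerSeries_injective (Γ := ℤ) (R := k)
      rw [map_zero]
      exact h2
    have h5 := congrArg PowerSeries.constantCoeff h4
    rw [map_zero, Polynomial.aeval_def, Polynomial.hom_eval₂, hq0, Polynomial.eval₂_at_zero] at h5
    apply hR0
    simpa using h5
  rw [hR', map_mul, map_pow, Polynomial.aeval_X]
  exact mul_ne_zero (pow_ne_zero _ hr) h1

theorem aeval_ne_zero_of_order {r : LaurentSeries k} (hr : r ≠ 0) (h : r.order ≠ 0)
    {R : Polynomial k} (hR : R ≠ 0) : Polynomial.aeval r R ≠ 0 := by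
  rcases lt_or_gt_of_ne h with h1 | h1
  · have h2 : 0 < (r⁻¹).order := by
      have h3 := HahnSeries.order_mul hr (inv_ne_zero hr)
      rw [mul_inv_cancel₀ hr, HahnSeries.order_one] at h3
      omega
    let _ : Invertible r := invertibleOfNonzero hr
    have h3 := Polynomial.eval₂_reverse_mul_pow (algebraMap k (LaurentSeries k)) r R
    rw [Polynomial.aeval_def, ← h3, invOf_eq_inv]
    refine mul_ne_zero ?_ (pow_ne_zero _ hr)
    exact aeval_ne_zero_pos (inv_ne_zero hr) h2
      (fun h4 => hR (Polynomial.reverse_eq_zero.mp h4))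
  · exact aeval_ne_zero_pos hr h1 hR

/-- A non constant Laurent series is transcendental. -/
theorem aeval_ne_zero {q : LaurentSeries k} {n : ℤ} (hn : n ≠ 0) (hq : q.coeff n ≠ 0)
    {R : Polynomial k} (hR : R ≠ 0) : Polynomial.aeval q R ≠ 0 := by
  set c := q.coeff 0 with hc
  set r : LaurentSeries k := q - HahnSeries.C c with hr
  have h1 : r.coeff n ≠ 0 := by
    rw [hr, HahnSeries.coeff_sub, HahnSeries.C_apply, HahnSeries.coeff_single_of_ne hn, sub_zero]
    exact hq
  have h2 : r ≠ 0 := by
    intro h
    rw [h, HahnSeries.coeff_zero] at h1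
    exact h1 rfl
  have h3 : r.order ≠ 0 := by
    intro h
    have h4 := HahnSeries.coeff_order_eq_zero.not.mpr h2
    rw [h, hr, HahnSeries.coeff_sub, HahnSeries.C_apply, HahnSeries.coeff_single_same, hc,
      sub_self] at h4
    exact h4 rfl
  have h4 : Polynomial.aeval q R = Polynomial.aeval r (R.comp (Polynomial.X + Polynomial.C c)) := by
    rw [Polynomial.aeval_comp, map_add, Polynomial.aeval_X, Polynomial.aeval_C, hr,
      algebraMap_eq, sub_add_cancel]
  rw [h4]
  refine aeval_ne_zero_of_order h2 h3 ?_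
  intro h5
  apply hR
  have h6 := congrArg (fun P => P.comp (Polynomial.X - Polynomial.C c)) h5
  simpa [Polynomial.comp_assoc] using h6

end Transc

section Series

variable {K : Type*} [Field K] {O : ValuationSubring K}

/-- A series with coefficients in `O` and non constant reduction gives a Gauss valuation. -/
theorem isGauss_of_series {W : ValuationSubring (LaurentSeries K)}
    (hW : ∀ f : LaurentSeries K, (∀ n, f.coeff n ∈ O) → f ∈ W)
    (hW' : ∀ f : LaurentSeries K, (∀ n, f.coeff n ∈ O.nonunits) → f ∈ W.nonunits)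
    {p : LaurentSeries K} (hp : ∀ n, p.coeff n ∈ O) {n : ℤ} (hn : n ≠ 0)
    (hpn : p.coeff n ∉ O.nonunits) : IsGauss O W p := by
  let φ : O →+* intL O := ((HahnSeries.C : K →+* LaurentSeries K).comp
    (algebraMap O K)).codRestrict (intL O) fun a m => by
      rw [RingHom.comp_apply, HahnSeries.C_apply, HahnSeries.coeff_single]
      split_ifs
      · exact a.2
      · exact zero_mem _
  let evI : Polynomial O → intL O := fun P => P.eval₂ φ ⟨p, hp⟩
  have h1 : ∀ P, ((evI P : intL O) : LaurentSeries K) = ev O p P := by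
    intro P
    have h2 := Polynomial.hom_eval₂ P φ (intL O).subtype ⟨p, hp⟩
    change (intL O).subtype (P.eval₂ φ ⟨p, hp⟩) = _
    rw [h2, ev, Polynomial.aeval_def, Polynomial.eval₂_map, algebraMap_eq]
    rfl
  have h2 : ∀ P, red O (evI P) = Polynomial.aeval (red O ⟨p, hp⟩) (P.map (residue O)) := by
    intro P
    have h2 := Polynomial.hom_eval₂ P φ (red O) ⟨p, hp⟩
    change red O (P.eval₂ φ ⟨p, hp⟩) = _
    rw [h2, Polynomial.aeval_def, Polynomial.eval₂_map, algebraMap_eq]
    congr 1
    ext a m
    rw [RingHom.comp_apply, red_coeff, RingHom.comp_apply]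
    change residue O ⟨(HahnSeries.C ((a : O) : K) : LaurentSeries K).coeff m, _⟩ =
      (HahnSeries.C (residue O a) : LaurentSeries (ResidueField O)).coeff m
    by_cases hm : m = 0
    · refine (congrArg (residue O) (Subtype.ext ?_ : _ = (a : O))).trans ?_
      · change (HahnSeries.C ((a : O) : K) : LaurentSeries K).coeff m = ((a : O) : K)
        rw [HahnSeries.C_apply, HahnSeries.coeff_single, if_pos hm]
      · rw [HahnSeries.C_apply, HahnSeries.coeff_single, if_pos hm]
    · refine (congrArg (residue O) (Subtype.ext ?_ : _ = (0 : O))).trans ?_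
      · change (HahnSeries.C ((a : O) : K) : LaurentSeries K).coeff m = 0
        rw [HahnSeries.C_apply, HahnSeries.coeff_single, if_neg hm]
      · rw [HahnSeries.C_apply, HahnSeries.coeff_single, if_neg hm, map_zero]
  refine ⟨fun P => ?_, fun P hP => ?_, fun P hP => ?_⟩
  · rw [← h1]
    exact hW _ (evI P).2
  · rw [← h1]
    refine hW' _ ((red_eq_zero_iff O _).mp ?_)
    rw [h2]
    have h3 : P.map (residue O) = 0 := by
      ext m
      rw [Polynomial.coeff_map, Polynomial.coeff_zero, residue_eq_zero_iff]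
      exact ValuationSubring.coe_mem_nonunits_iff.mp (hP m)
    rw [h3, map_zero]
  · rw [← h1]
    have h3 : red O (evI P) ≠ 0 := by
      rw [h2]
      refine aeval_ne_zero hn ?_ hP
      rw [red_coeff, Ne, residue_eq_zero_iff]
      exact fun h => hpn (ValuationSubring.coe_mem_nonunits_iff.mpr h)
    have h4 := (red_eq_zero_iff O (evI P)).not.mp h3
    push Not at h4
    obtain ⟨m, hm⟩ := h4
    exact notMem_nonunits hW hW' (evI P).2 hm

variable {L M : Type*} [Field L] [Field M] [Algebra K L] [Algebra K M]

theorem mem_nonunits_comap {W : ValuationSubring M} (e : L →+* M) {x : L} :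
    x ∈ (W.comap e).nonunits ↔ e x ∈ W.nonunits := by
  rw [ValuationSubring.mem_nonunits_iff_or, ValuationSubring.mem_nonunits_iff_or,
    ValuationSubring.mem_comap, map_inv₀, map_eq_zero]

theorem ev_map (e : L →ₐ[K] M) (x : L) (P : Polynomial O) : e (ev O x P) = ev O (e x) P := by
  rw [ev, ev, ← Polynomial.aeval_algHom_apply]

theorem IsGauss.comap {W : ValuationSubring M} {e : L →ₐ[K] M} {x : L}
    (h : IsGauss O W (e x)) : IsGauss O (W.comap (e : L →+* M)) x := by
  refine ⟨fun P => ?_, fun P hP => ?_, fun P hP => ?_⟩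
  · rw [ValuationSubring.mem_comap]
    change e _ ∈ W
    rw [ev_map]
    exact h.mem P
  · rw [mem_nonunits_comap]
    change e _ ∈ W.nonunits
    rw [ev_map]
    exact h.max P hP
  · rw [mem_nonunits_comap]
    change e _ ∉ W.nonunits
    rw [ev_map]
    exact h.unit P hP

end Series

end Vale.Agent.P022.H619.L3
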