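import Vale.Agent.P022.H542.L3.Geo
import Vale.Agent.P022.H619.L3.Ser

/-!
# P022-L3, chapter G, [CHEV] (helper619)
-/

namespace Vale.Agent.P022.H619.L3

open Vale.Agent.P022.H542.L3

/-- a valuation ring with the three properties of `exists_val` is a `Wok` -/
theorem wok_of {O : ValuationSubring ℂ} {W : ValuationSubring LS}
    (hW : ∀ f : LS, (∀ n, f.coeff n ∈ O) → f ∈ W)
    (hW' : ∀ f : LS, (∀ n, f.coeff n ∈ O.nonunits) → f ∈ W.nonunits) : Wok O W := by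
  refine ⟨hW, fun x hx ⟨n, hn, hn0⟩ => ?_, fun x hx => hW' x hx⟩
  have h1 : x.coeff n ∉ O.nonunits := by
    rw [ValuationSubring.mem_nonunits_iff_or]
    rintro (h | h)
    · exact hn0 h
    · exact h hn
  have h2 := notMem_nonunits hW hW' hx h1
  rw [ValuationSubring.mem_nonunits_iff_or, not_or, not_not] at h2
  exact h2.2

/-- [CHEV] -/
theorem chev : ChevStmt := by
  intro O
  obtain ⟨W, h1, h2⟩ := exists_val O
  exact ⟨W, wok_of h1 h2⟩

/-- The converse of `wok_of`. -/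
theorem wok_series {O : ValuationSubring ℂ} {W : ValuationSubring LS} (h : Wok O W) :
    (∀ f : LS, (∀ n, f.coeff n ∈ O) → f ∈ W) ∧
      ∀ f : LS, (∀ n, f.coeff n ∈ O.nonunits) → f ∈ W.nonunits :=
  ⟨h.mem, fun f hf => h.max f hf⟩

theorem notMem_nonunits_of_bUnit {B : ℕ} {a : ℂ} (ha : BUnit B a) {ℓ : ℕ} (hℓ : ℓ.Prime)
    (hB : ¬ ℓ ∣ B) {O : ValuationSubring ℂ} (hO : O.valuation (ℓ : ℂ) < 1) :
    a ∈ O ∧ a ∉ O.nonunits := by
  have hint : ∀ z : ℤ, (z : ℂ) ∈ O := fun z => by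
    have := (algebraMap ℤ O z).2
    simpa using this
  have hBu : (B : ℂ) ∈ O ∧ (B : ℂ)⁻¹ ∈ O := by
    have h1 : (B : ℂ) ∈ O := by exact_mod_cast hint B
    refine ⟨h1, ?_⟩
    by_contra h2
    have h3 : (B : ℂ) ∈ O.nonunits := (ValuationSubring.mem_nonunits_iff_or _).mpr (Or.inr h2)
    have h4 : IsCoprime (B : ℤ) (ℓ : ℤ) := by
      rw [Nat.isCoprime_iff_coprime]
      exact ((Nat.Prime.coprime_iff_not_dvd hℓ).mpr hB).symm
    obtain ⟨u, v, huv⟩ := h4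
    have h5 : (u : ℂ) * (B : ℂ) + v * (ℓ : ℂ) = 1 := by exact_mod_cast huv
    have h6 : (1 : ℂ) ∈ O.nonunits := by
      rw [← h5]
      exact add_mem (nonunits_mul O (hint u) h3) (nonunits_mul O (hint v) hO)
    rw [ValuationSubring.mem_nonunits_iff, map_one] at h6
    exact lt_irrefl _ h6
  have hBI : ∀ x : ℂ, BInt B x → x ∈ O := by
    rintro x ⟨m, z, hx⟩
    by_cases hB0 : (B : ℂ) = 0
    · exfalso
      apply hB
      have : B = 0 := by exact_mod_cast hB0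
      rw [this]
      exact dvd_zero ℓ
    have h1 : x = ((B : ℂ)⁻¹) ^ m * z := by
      rw [← hx, inv_pow, ← mul_assoc, inv_mul_cancel₀ (pow_ne_zero _ hB0), one_mul]
    rw [h1]
    exact mul_mem (pow_mem hBu.2 m) (hint z)
  refine ⟨hBI a ha.1, fun h => ?_⟩
  rcases (ValuationSubring.mem_nonunits_iff_or _).mp h with h1 | h1
  · exact ha.2.2 h1
  · exact h1 (hBI _ ha.2.1)

theorem mem_of_bInt {B : ℕ} {a : ℂ} (ha : BInt B a) {ℓ : ℕ} (hℓ : ℓ.Prime)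
    (hB : ¬ ℓ ∣ B) {O : ValuationSubring ℂ} (hO : O.valuation (ℓ : ℂ) < 1) : a ∈ O := by
  by_cases h0 : a = 0
  · rw [h0]
    exact zero_mem _
  obtain ⟨m, z, hx⟩ := ha
  have hB0 : (B : ℂ) ≠ 0 := by
    intro hB0
    apply hB
    have : B = 0 := by exact_mod_cast hB0
    rw [this]
    exact dvd_zero ℓ
  have hBu : BUnit B (B : ℂ) := by
    refine ⟨⟨0, B, by simp⟩, ⟨1, 1, ?_⟩, hB0⟩
    rw [pow_one, mul_inv_cancel₀ hB0, Int.cast_one]
  obtain ⟨h1, h2⟩ := notMem_nonunits_of_bUnit hBu hℓ hB hO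
  rw [ValuationSubring.mem_nonunits_iff_or, not_or, not_not] at h2
  have h3 : a = ((B : ℂ)⁻¹) ^ m * z := by
    rw [← hx, inv_pow, ← mul_assoc, inv_mul_cancel₀ (pow_ne_zero _ hB0), one_mul]
  rw [h3]
  refine mul_mem (pow_mem h2.2 m) ?_
  have := (algebraMap ℤ O z).2
  simpa using this

/-- The restriction of `W` to `K` (through `e`) lies above the Gauss valuation of `ℂ(p)`. -/
theorem geo_isGauss {B : ℕ} (G : Geo B) {ℓ : ℕ} (hℓ : ℓ.Prime) (hB : ¬ ℓ ∣ B)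
    {O : ValuationSubring ℂ} (hO : O.valuation (ℓ : ℂ) < 1) {W : ValuationSubring LS}
    (hW : Wok O W) : IsGauss O (W.comap (G.e : G.K →+* LS)) G.p := by
  obtain ⟨n, hn, hu⟩ := G.lead
  obtain ⟨-, h2⟩ := notMem_nonunits_of_bUnit hu hℓ hB hO
  refine IsGauss.comap (isGauss_of_series hW.mem (fun f hf => hW.max f hf) (fun k => ?_) hn h2)
  obtain ⟨m, hm⟩ := G.int _ G.pR
  obtain ⟨z, hz⟩ := hm k
  exact mem_of_bInt ⟨m, z, hz⟩ hℓ hB hO

/-- The cusp values are in `O` and have distinct residues. -/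
theorem geo_S {B : ℕ} (G : Geo B) {ℓ : ℕ} (hℓ : ℓ.Prime) (hB : ¬ ℓ ∣ B)
    {O : ValuationSubring ℂ} (hO : O.valuation (ℓ : ℂ) < 1) :
    (∀ s ∈ G.S, (s : ℂ) ∈ O) ∧
      ∀ s ∈ G.S, ∀ s' ∈ G.S, s ≠ s' → (s : ℂ) - s' ∉ O.nonunits :=
  ⟨fun s hs => mem_of_bInt (G.Sint s hs) hℓ hB hO,
    fun s hs s' hs' h => (notMem_nonunits_of_bUnit (G.Ssep s hs s' hs' h) hℓ hB hO).2⟩

end Vale.Agent.P022.H619.L3
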