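import Mathlib

/-!
# P022-L3, chapter G, [VAL]: Gauss valuations and q-expansions (helper619)
-/

open Polynomial IsLocalRing

namespace Vale.Agent.P022.H619.L3

/-! ### Chevalley -/

section Chev

variable {K : Type*} [Field K] (O : ValuationSubring K)

/-- The Laurent series with coefficients in `O`. -/
def intL : Subring (LaurentSeries K) where
  carrier := {f | ∀ n, f.coeff n ∈ O}
  mul_mem' := by
    intro f g hf hg n
    rw [HahnSeries.coeff_mul]
    exact sum_mem fun ij _ => mul_mem (hf _) (hg _)
  one_mem' := by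
    intro n
    rw [HahnSeries.coeff_one]
    split_ifs
    · exact one_mem _
    · exact zero_mem _
  add_mem' := by
    intro f g hf hg n
    rw [HahnSeries.coeff_add]
    exact add_mem (hf _) (hg _)
  zero_mem' := by
    intro n
    rw [HahnSeries.coeff_zero]
    exact zero_mem _
  neg_mem' := by
    intro f hf n
    rw [HahnSeries.coeff_neg]
    exact neg_mem (hf _)

theorem mem_intL {f : LaurentSeries K} : f ∈ intL O ↔ ∀ n, f.coeff n ∈ O := Iff.rfl

theorem nonunits_mul {x y : K} (hx : x ∈ O) (hy : y ∈ O.nonunits) : x * y ∈ O.nonunits := by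
  rw [ValuationSubring.mem_nonunits_iff] at hy ⊢
  rw [map_mul]
  exact (mul_le_of_le_one_left' ((O.valuation_le_one_iff x).mpr hx)).trans_lt hy

/-- The series with coefficients in the maximal ideal. -/
def maxL : Ideal (intL O) where
  carrier := {f | ∀ n, (f : LaurentSeries K).coeff n ∈ O.nonunits}
  add_mem' := by
    intro f g hf hg n
    have h : ((f + g : intL O) : LaurentSeries K).coeff n =
        (f : LaurentSeries K).coeff n + (g : LaurentSeries K).coeff n := by
      rw [Subring.coe_add, HahnSeries.coeff_add]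
    rw [h]
    exact add_mem (hf _) (hg _)
  zero_mem' := by
    intro n
    exact O.nonunits.zero_mem
  smul_mem' := by
    intro f g hg n
    have h : ((f • g : intL O) : LaurentSeries K) = (f : LaurentSeries K) * g := rfl
    rw [h, HahnSeries.coeff_mul]
    exact sum_mem fun ij _ => nonunits_mul O (f.2 _) (hg _)

theorem maxL_ne_top : maxL O ≠ ⊤ := by
  rw [Ideal.ne_top_iff_one]
  intro h
  have h1 := h 0
  rw [Subring.coe_one, HahnSeries.coeff_one, if_pos rfl, ValuationSubring.mem_nonunits_iff,
    map_one] at h1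
  exact lt_irrefl _ h1

/-- (Chevalley) a valuation subring of the field of Laurent series above the Gauss valuation. -/
theorem exists_val : ∃ W : ValuationSubring (LaurentSeries K),
    (∀ f : LaurentSeries K, (∀ n, f.coeff n ∈ O) → f ∈ W) ∧
    ∀ f : LaurentSeries K, (∀ n, f.coeff n ∈ O.nonunits) → f ∈ W.nonunits := by
  obtain ⟨W, h1, h2⟩ := Ideal.image_subset_nonunits_valuationSubring (maxL O) (maxL_ne_top O)
  refine ⟨W, fun f hf => h1 hf, fun f hf => h2 ?_⟩
  exact ⟨⟨f, fun n => ValuationSubring.nonunits_subset (hf n)⟩, hf, rfl⟩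

variable {O}

theorem notMem_of_mul {L : Type*} [Field L] {W : ValuationSubring L} {x y : L} (hy : y ∈ W)
    (h : x * y = 1) : x ∉ W.nonunits := by
  intro hx
  have h1 := nonunits_mul W hy hx
  rw [mul_comm, h, ValuationSubring.mem_nonunits_iff, map_one] at h1
  exact lt_irrefl _ h1

theorem notMem_mul {L : Type*} [Field L] {W : ValuationSubring L} {x y : L} (hx : x ∉ W.nonunits)
    (hy : y ∉ W.nonunits) : x * y ∉ W.nonunits := by
  rw [ValuationSubring.mem_nonunits_iff, not_lt] at *
  rw [map_mul]
  exact one_le_mul hx hy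

theorem notMem_add {L : Type*} [Field L] {W : ValuationSubring L} {x y : L} (hx : x ∈ W.nonunits)
    (hy : y ∉ W.nonunits) : x + y ∉ W.nonunits := by
  intro h
  apply hy
  have h1 := sub_mem h hx
  rwa [add_sub_cancel_left] at h1

theorem single_notMem {W : ValuationSubring (LaurentSeries K)}
    (hW : ∀ f : LaurentSeries K, (∀ n, f.coeff n ∈ O) → f ∈ W) (m : ℤ) :
    (HahnSeries.single m 1 : LaurentSeries K) ∉ W.nonunits := by
  refine notMem_of_mul (y := HahnSeries.single (-m) 1) (hW _ fun n => ?_) ?_
  · rw [HahnSeries.coeff_single]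
    split_ifs
    · exact one_mem _
    · exact zero_mem _
  · rw [HahnSeries.single_mul_single, add_neg_cancel, mul_one]
    rfl

/-- The power series over `K` of a power series over `O`. -/
noncomputable abbrev mp (O : ValuationSubring K) (g : PowerSeries O) : LaurentSeries K :=
  ((PowerSeries.map (algebraMap O K) g : PowerSeries K) : LaurentSeries K)

theorem mp_mul (f g : PowerSeries O) : mp O (f * g) = mp O f * mp O g := by
  simp only [mp, map_mul]

theorem mp_add (f g : PowerSeries O) : mp O (f + g) = mp O f + mp O g := by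
  simp only [mp, map_add]

theorem mp_coeff (g : PowerSeries O) (n : ℤ) : (mp O g).coeff n ∈ O := by
  rw [mp, PowerSeries.coeff_coe]
  split_ifs
  · exact zero_mem _
  · rw [PowerSeries.coeff_map]
    exact (PowerSeries.coeff _ g).2

/-- A series with coefficients in `O` and leading coefficient a unit is a unit of `W`. -/
theorem notMem_of_lead {W : ValuationSubring (LaurentSeries K)}
    (hW : ∀ f : LaurentSeries K, (∀ n, f.coeff n ∈ O) → f ∈ W) (g : PowerSeries O)
    (hg : IsUnit (PowerSeries.constantCoeff g)) : mp O g ∉ W.nonunits := by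
  obtain ⟨h, hh⟩ := (PowerSeries.isUnit_iff_constantCoeff.mpr hg).exists_right_inv
  refine notMem_of_mul (y := mp O h) (hW _ (mp_coeff h)) ?_
  rw [← mp_mul, hh]
  simp [mp]

theorem mp_notMem {W : ValuationSubring (LaurentSeries K)}
    (hW : ∀ f : LaurentSeries K, (∀ n, f.coeff n ∈ O) → f ∈ W)
    (hW' : ∀ f : LaurentSeries K, (∀ n, f.coeff n ∈ O.nonunits) → f ∈ W.nonunits)
    (g : PowerSeries O) (hg : ∃ n, IsUnit (PowerSeries.coeff n g)) : mp O g ∉ W.nonunits := by
  classical
  let n := Nat.find hg
  let H : PowerSeries O := PowerSeries.mk fun k => PowerSeries.coeff (k + n) g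
  have h1 : g = (PowerSeries.trunc n g : PowerSeries O) + PowerSeries.X ^ n * H := by
    ext k
    rw [map_add, PowerSeries.coeff_X_pow_mul', Polynomial.coeff_coe, PowerSeries.coeff_trunc]
    by_cases hk : k < n
    · rw [if_pos hk, if_neg (not_le.mpr hk), add_zero]
    · rw [if_neg hk, if_pos (not_lt.mp hk), zero_add, PowerSeries.coeff_mk,
        Nat.sub_add_cancel (not_lt.mp hk)]
  rw [h1, mp_add, mp_mul]
  refine notMem_add (hW' _ fun m => ?_) (notMem_mul ?_ (notMem_of_lead hW H ?_))
  · rw [mp, PowerSeries.coeff_coe]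
    split_ifs
    · exact O.nonunits.zero_mem
    · rw [PowerSeries.coeff_map, Polynomial.coeff_coe, PowerSeries.coeff_trunc]
      split_ifs with h2
      · have h3 := Nat.find_min hg h2
        exact ValuationSubring.coe_mem_nonunits_iff.mpr ((IsLocalRing.mem_maximalIdeal _).mpr h3)
      · exact O.nonunits.zero_mem
  · have h2 : mp O (PowerSeries.X ^ n) = HahnSeries.single (n : ℤ) 1 := by
      rw [mp, map_pow, PowerSeries.map_X, PowerSeries.coe_pow, PowerSeries.coe_X]
      simp
    rw [h2]
    exact single_notMem hW _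
  · rw [← PowerSeries.coeff_zero_eq_constantCoeff_apply, PowerSeries.coeff_mk, zero_add]
    exact Nat.find_spec hg

/-- On the Laurent series with coefficients in `O`, the nonunits of `W` are the series with all
coefficients in the maximal ideal. -/
theorem notMem_nonunits {W : ValuationSubring (LaurentSeries K)}
    (hW : ∀ f : LaurentSeries K, (∀ n, f.coeff n ∈ O) → f ∈ W)
    (hW' : ∀ f : LaurentSeries K, (∀ n, f.coeff n ∈ O.nonunits) → f ∈ W.nonunits)
    {f : LaurentSeries K} (hf : ∀ n, f.coeff n ∈ O) {n : ℤ} (hn : f.coeff n ∉ O.nonunits) :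
    f ∉ W.nonunits := by
  have h0 := LaurentSeries.single_order_mul_powerSeriesPart f
  let g : PowerSeries O := PowerSeries.mk fun k => ⟨f.coeff (f.order + k), hf _⟩
  have h1 : ((LaurentSeries.powerSeriesPart f : PowerSeries K) : LaurentSeries K) = mp O g := by
    rw [mp]
    congr 1
  rw [h1] at h0
  rw [← h0]
  refine notMem_mul (single_notMem hW _) (mp_notMem hW hW' g ?_)
  have h2 : f.order ≤ n := by
    by_contra h3
    rw [HahnSeries.coeff_eq_zero_of_lt_order (not_le.mp h3)] at hn
    exact hn O.nonunits.zero_mem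
  obtain ⟨k, hk⟩ := Int.eq_ofNat_of_zero_le (sub_nonneg.mpr h2)
  refine ⟨k, ?_⟩
  by_contra h3
  apply hn
  have h4 : f.coeff n = ((PowerSeries.coeff k g : O) : K) := by
    rw [PowerSeries.coeff_mk]
    change _ = f.coeff (f.order + (k : ℤ))
    congr 1
    omega
  rw [h4]
  exact ValuationSubring.coe_mem_nonunits_iff.mpr ((IsLocalRing.mem_maximalIdeal _).mpr h3)

variable (O)

/-- The reduction of a Laurent series with coefficients in `O`. -/
noncomputable def redF (f : intL O) : LaurentSeries (ResidueField O) where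
  coeff n := residue O ⟨(f : LaurentSeries K).coeff n, f.2 n⟩
  isPWO_support' := by
    refine (f : LaurentSeries K).isPWO_support.mono fun n hn h => hn ?_
    have h1 : (⟨(f : LaurentSeries K).coeff n, f.2 n⟩ : O) = 0 := Subtype.ext h
    exact (congrArg (residue O) h1).trans (map_zero _)

theorem redF_coeff (f : intL O) (n : ℤ) :
    (redF O f).coeff n = residue O ⟨(f : LaurentSeries K).coeff n, f.2 n⟩ := rfl

/-- The reduction as a ring homomorphism. -/
noncomputable def red : intL O →+* LaurentSeries (ResidueField O) where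
  toFun := redF O
  map_zero' := by
    ext n
    rw [redF_coeff, HahnSeries.coeff_zero]
    exact map_zero (residue O)
  map_add' f g := by
    ext n
    rw [HahnSeries.coeff_add, redF_coeff, redF_coeff, redF_coeff, ← map_add]
    congr 1
  map_one' := by
    ext n
    rw [redF_coeff, HahnSeries.coeff_one]
    by_cases h : n = 0
    · rw [if_pos h, ← map_one (residue O)]
      congr 1
      apply Subtype.ext
      change (1 : LaurentSeries K).coeff n = 1
      rw [HahnSeries.coeff_one, if_pos h]
    · rw [if_neg h, ← map_zero (residue O)]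
      congr 1
      apply Subtype.ext
      change (1 : LaurentSeries K).coeff n = 0
      rw [HahnSeries.coeff_one, if_neg h]
  map_mul' f g := by
    ext n
    rw [redF_coeff, HahnSeries.coeff_mul]
    have h1 : (⟨((f * g : intL O) : LaurentSeries K).coeff n, (f * g).2 n⟩ : O) =
        ∑ ij ∈ Finset.antidiagonal (f : LaurentSeries K).isPWO_support
          (g : LaurentSeries K).isPWO_support n,
          (⟨(f : LaurentSeries K).coeff ij.1, f.2 _⟩ : O) *
            ⟨(g : LaurentSeries K).coeff ij.2, g.2 _⟩ := by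
      apply Subtype.ext
      push_cast
      change ((f : LaurentSeries K) * g).coeff n = _
      rw [HahnSeries.coeff_mul]
    rw [h1, map_sum]
    simp only [map_mul, ← redF_coeff]
    symm
    refine Finset.sum_subset ?_ ?_
    · intro ij hij
      rw [Finset.mem_antidiagonal] at hij ⊢
      refine ⟨fun h => hij.1 ?_, fun h => hij.2.1 ?_, hij.2.2⟩
      · rw [redF_coeff, show (⟨(f : LaurentSeries K).coeff ij.1, f.2 _⟩ : O) = 0 from
          Subtype.ext h, map_zero]
      · rw [redF_coeff, show (⟨(g : LaurentSeries K).coeff ij.2, g.2 _⟩ : O) = 0 from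
          Subtype.ext h, map_zero]
    · intro ij h1 h2
      rw [Finset.mem_antidiagonal] at h1 h2
      by_contra h3
      exact h2 ⟨left_ne_zero_of_mul h3, right_ne_zero_of_mul h3, h1.2.2⟩

theorem red_coeff (f : intL O) (n : ℤ) :
    (red O f).coeff n = residue O ⟨(f : LaurentSeries K).coeff n, f.2 n⟩ := rfl

theorem red_eq_zero_iff (f : intL O) :
    red O f = 0 ↔ ∀ n, (f : LaurentSeries K).coeff n ∈ O.nonunits := by
  constructor
  · intro h n
    have h1 : (red O f).coeff n = 0 := by rw [h, HahnSeries.coeff_zero]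
    rw [red_coeff, residue_eq_zero_iff] at h1
    exact ValuationSubring.coe_mem_nonunits_iff.mpr h1
  · intro h
    ext n
    rw [red_coeff, HahnSeries.coeff_zero, residue_eq_zero_iff]
    exact ValuationSubring.coe_mem_nonunits_iff.mp (h n)

end Chev

/-! ### The Gauss valuation of `K(p)` -/

section Gauss

variable {K : Type*} [Field K] {O : ValuationSubring K} {L : Type*} [Field L] [Algebra K L]

/-- The value at `p` of a polynomial over `O`. -/
noncomputable abbrev ev (O : ValuationSubring K) (p : L) (P : Polynomial O) : L :=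
  Polynomial.aeval p (P.map (algebraMap O K))

/-- `W` lies above the Gauss valuation of `K(p)`. -/
structure IsGauss (O : ValuationSubring K) (W : ValuationSubring L) (p : L) : Prop where
  mem : ∀ P : Polynomial O, ev O p P ∈ W
  max : ∀ P : Polynomial O, (∀ n, (P.coeff n : K) ∈ O.nonunits) → ev O p P ∈ W.nonunits
  unit : ∀ P : Polynomial O, P.map (residue O) ≠ 0 → ev O p P ∉ W.nonunits

theorem exists_prim {Q : Polynomial K} (hQ : Q ≠ 0) : ∃ (c : K) (Q₀ : Polynomial O), c ≠ 0 ∧
    Polynomial.C c * Q = Q₀.map (algebraMap O K) ∧ Q₀.map (residue O) ≠ 0 ∧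
    (c ∉ O.nonunits → ∀ n, Q.coeff n ∈ O) := by
  obtain ⟨n, hn, hmax⟩ := Finset.exists_max_image Q.support (fun n => O.valuation (Q.coeff n))
    (Polynomial.support_nonempty.mpr hQ)
  have hn0 : Q.coeff n ≠ 0 := Polynomial.mem_support_iff.mp hn
  have hmax' : ∀ m, O.valuation (Q.coeff m) ≤ O.valuation (Q.coeff n) := by
    intro m
    by_cases hm : Q.coeff m = 0
    · rw [hm, map_zero]
      exact zero_le
    · exact hmax m (Polynomial.mem_support_iff.mpr hm)
  have hint : ∀ m, (Q.coeff n)⁻¹ * Q.coeff m ∈ O := by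
    intro m
    rw [← ValuationSubring.valuation_le_one_iff, map_mul, map_inv₀, ← div_eq_inv_mul]
    exact div_le_one_of_le₀ (hmax' m) zero_le
  let Q₀ : Polynomial O := ∑ m ∈ Q.support, Polynomial.monomial m ⟨_, hint m⟩
  have hcoeff : ∀ m, (Q₀.coeff m : K) = (Q.coeff n)⁻¹ * Q.coeff m := by
    intro m
    rw [Polynomial.finsetSum_coeff]
    simp only [Polynomial.coeff_monomial]
    rw [Finset.sum_ite_eq' Q.support m]
    split_ifs with h
    · rfl
    · rw [Polynomial.notMem_support_iff.mp h, mul_zero]
      rfl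
  refine ⟨(Q.coeff n)⁻¹, Q₀, inv_ne_zero hn0, ?_, ?_, fun h m => ?_⟩
  · ext m
    rw [Polynomial.coeff_C_mul, Polynomial.coeff_map]
    exact (hcoeff m).symm
  · intro h
    have h1 : residue O (Q₀.coeff n) = 0 := by
      rw [← Polynomial.coeff_map, h, Polynomial.coeff_zero]
    have h2 : Q₀.coeff n = 1 := by
      apply Subtype.ext
      rw [hcoeff, inv_mul_cancel₀ hn0]
      rfl
    rw [h2, map_one] at h1
    exact one_ne_zero h1
  · rw [ValuationSubring.mem_nonunits_iff, not_lt, map_inv₀] at h
    rw [← ValuationSubring.valuation_le_one_iff]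
    refine (hmax' m).trans ?_
    have h3 : 0 < O.valuation (Q.coeff n) := by
      rw [zero_lt_iff, Ne, map_eq_zero]
      exact hn0
    exact (one_le_inv₀ h3).mp h

theorem nonunits_of_map {P : Polynomial O} (h : P.map (residue O) = 0) (n : ℕ) :
    (P.coeff n : K) ∈ O.nonunits := by
  rw [ValuationSubring.coe_mem_nonunits_iff, ← residue_eq_zero_iff, ← Polynomial.coeff_map, h,
    Polynomial.coeff_zero]

/-- The reduction of an element of `W ∩ K(p)` is a rational function. -/
theorem IsGauss.exists_quot {W : ValuationSubring L} {p : L} (h : IsGauss O W p) {g : L}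
    (hg : g ∈ W) {P Q : Polynomial K} (hQ : Q ≠ 0)
    (hPQ : g * Polynomial.aeval p Q = Polynomial.aeval p P) :
    ∃ P₀ Q₀ : Polynomial O, Q₀.map (residue O) ≠ 0 ∧ g * ev O p Q₀ = ev O p P₀ := by
  obtain ⟨c, Q₀, hc, hQ₀, hQ1, -⟩ := exists_prim (O := O) hQ
  have h1 : g * ev O p Q₀ = Polynomial.aeval p (Polynomial.C c * P) := by
    rw [ev, ← hQ₀, map_mul, map_mul, ← hPQ]
    ring
  by_cases hP : Polynomial.C c * P = 0
  · refine ⟨0, Q₀, hQ1, ?_⟩
    rw [h1, hP, ev, Polynomial.map_zero]
  obtain ⟨d, P₁, hd, hP₁, hP2, hP3⟩ := exists_prim (O := O) hP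
  by_cases hd1 : d ∈ O.nonunits
  · exfalso
    have h2 : algebraMap K L d * (g * ev O p Q₀) = ev O p P₁ := by
      rw [h1, ev, ← hP₁]
      simp only [map_mul, Polynomial.aeval_C]
    have h3 : algebraMap K L d ∈ W.nonunits := by
      have := h.max (Polynomial.C ⟨d, ValuationSubring.nonunits_subset hd1⟩) fun n => by
        rw [Polynomial.coeff_C]
        split_ifs
        · exact hd1
        · exact O.nonunits.zero_mem
      simpa [ev] using this
    refine h.unit P₁ hP2 ?_
    rw [← h2, mul_comm]
    exact nonunits_mul W (mul_mem hg (h.mem _)) h3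
  · have h2 := hP3 hd1
    obtain ⟨P₀, hP₀⟩ : ∃ P₀ : Polynomial O, P₀.map (algebraMap O K) = Polynomial.C c * P := by
      have h3 : Polynomial.C c * P ∈ Polynomial.lifts (algebraMap O K) := by
        rw [Polynomial.lifts_iff_coeff_lifts]
        exact fun n => ⟨⟨_, h2 n⟩, rfl⟩
      obtain ⟨P₀, hP₀⟩ := (Polynomial.mem_lifts _).mp h3
      exact ⟨P₀, hP₀⟩
    refine ⟨P₀, Q₀, hQ1, ?_⟩
    rw [h1, ← hP₀]

/-- The product of the `p - s` for distinct residues `s` is not a square in the residue field of
`K(p)`. -/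
theorem IsGauss.not_sq {W : ValuationSubring L} {p : L} (h : IsGauss O W p) (S : Finset O)
    (hS : S.Nonempty) (hinj : Set.InjOn (residue O) S) {g : L} (hg : g ∈ W)
    {P Q : Polynomial K} (hQ : Q ≠ 0)
    (hPQ : g * Polynomial.aeval p Q = Polynomial.aeval p P) :
    g ^ 2 - ∏ s ∈ S, (p - algebraMap K L (s : K)) ∉ W.nonunits := by
  classical
  intro hn
  obtain ⟨P₀, Q₀, hQ1, h1⟩ := h.exists_quot hg hQ hPQ
  let D : Polynomial O := ∏ s ∈ S, (Polynomial.X - Polynomial.C s)
  have hD : ev O p D = ∏ s ∈ S, (p - algebraMap K L (s : K)) := by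
    simp only [ev, D, Polynomial.map_prod, map_prod, Polynomial.map_sub, Polynomial.map_X,
      Polynomial.map_C, map_sub, Polynomial.aeval_X, Polynomial.aeval_C]
    rfl
  have h2 : ev O p (P₀ ^ 2 - Q₀ ^ 2 * D) ∈ W.nonunits := by
    have h3 : ev O p (P₀ ^ 2 - Q₀ ^ 2 * D) = (ev O p Q₀) ^ 2 *
        (g ^ 2 - ∏ s ∈ S, (p - algebraMap K L (s : K))) := by
      have h4 : ev O p (P₀ ^ 2 - Q₀ ^ 2 * D) = (ev O p P₀) ^ 2 - (ev O p Q₀) ^ 2 * ev O p D := by
        simp only [ev, Polynomial.map_sub, Polynomial.map_pow, Polynomial.map_mul, map_sub,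
          map_pow, map_mul]
      rw [h4, hD, ← h1]
      ring
    rw [h3]
    exact nonunits_mul W (pow_mem (h.mem _) 2) hn
  have h3 : (P₀ ^ 2 - Q₀ ^ 2 * D).map (residue O) = 0 := by
    by_contra h4
    exact h.unit _ h4 h2
  rw [Polynomial.map_sub, Polynomial.map_pow, Polynomial.map_mul, Polynomial.map_pow,
    sub_eq_zero] at h3
  have hDr : D.map (residue O) = ∏ s ∈ S, (Polynomial.X - Polynomial.C (residue O s)) := by
    simp only [D, Polynomial.map_prod, Polynomial.map_sub, Polynomial.map_X, Polynomial.map_C]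
  have hD0 : D.map (residue O) ≠ 0 := by
    rw [hDr]
    exact Finset.prod_ne_zero_iff.mpr fun s _ => Polynomial.X_sub_C_ne_zero _
  obtain ⟨s, hs⟩ := hS
  have h4 : (D.map (residue O)).rootMultiplicity (residue O s) = 1 := by
    have hf := Finset.mul_prod_erase S
      (fun s => (Polynomial.X - Polynomial.C (residue O s) : Polynomial (ResidueField O))) hs
    rw [hDr, ← hf, Polynomial.rootMultiplicity_mul (by rw [hf, ← hDr]; exact hD0),
      Polynomial.rootMultiplicity_X_sub_C_self]
    have h5 : (∏ x ∈ S.erase s, (Polynomial.X - Polynomial.C (residue O x))).rootMultiplicity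
        (residue O s) = 0 := by
      rw [Polynomial.rootMultiplicity_eq_zero_iff]
      intro h6
      exfalso
      rw [Polynomial.IsRoot.def, Polynomial.eval_prod, Finset.prod_eq_zero_iff] at h6
      obtain ⟨x, hx, hx0⟩ := h6
      rw [Polynomial.eval_sub, Polynomial.eval_X, Polynomial.eval_C, sub_eq_zero] at hx0
      exact Finset.ne_of_mem_erase hx (hinj (Finset.mem_of_mem_erase hx) hs hx0.symm)
    rw [h5]
  have hP1 : P₀.map (residue O) ≠ 0 := by
    intro h5
    rw [h5, zero_pow two_ne_zero] at h3
    exact mul_ne_zero (pow_ne_zero 2 hQ1) hD0 h3.symm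
  have h5 := congrArg (Polynomial.rootMultiplicity (residue O s)) h3
  rw [Polynomial.rootMultiplicity_mul (mul_ne_zero (pow_ne_zero 2 hQ1) hD0), h4, pow_two, pow_two,
    Polynomial.rootMultiplicity_mul (mul_ne_zero hP1 hP1),
    Polynomial.rootMultiplicity_mul (mul_ne_zero hQ1 hQ1)] at h5
  omega

end Gauss

end Vale.Agent.P022.H619.L3
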