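import Vale.Agent.P022.H138.L3.Fill
import Vale.Agent.P022.H527.L3.Hex
import Vale.Agent.P022.H908.L3.GM

/-! # P022-L3: `V(N, M, n)` is finite -/

open scoped MatrixGroups
open CongruenceSubgroup Vale.Agent.P022.L3

namespace Vale.Agent.P022.H619.L3

theorem Gamma_le_Gs (N M : ℕ) : Gamma (N * 2 ^ M) ≤ H527.L3.Gs N M := by
  intro γ hγ
  rw [Gamma_mem] at hγ
  obtain ⟨-, h01, h10, h11⟩ := hγ
  have h1 : ((N * 2 ^ M : ℕ) : ℤ) ∣ γ 1 0 := (ZMod.intCast_zmod_eq_zero_iff_dvd _ _).1 h10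
  have h2 : ((N * 2 ^ M : ℕ) : ℤ) ∣ γ 0 1 := (ZMod.intCast_zmod_eq_zero_iff_dvd _ _).1 h01
  have h3 : ((N * 2 ^ M : ℕ) : ℤ) ∣ γ 1 1 - 1 := by
    refine (ZMod.intCast_zmod_eq_zero_iff_dvd _ _).1 ?_
    push_cast
    rw [h11, sub_self]
  have h4 : ((2 ^ M : ℕ) : ℤ) ∣ ((N * 2 ^ M : ℕ) : ℤ) := by
    exact_mod_cast Dvd.intro_left N rfl
  exact ⟨h1, h4.trans h2, Or.inl h3⟩

/-- **`V(N, M, n)` is finite** -/
theorem finite_V (N M n : ℕ) [NeZero N] : Finite (V N M n) := by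
  have : NeZero (N * 2 ^ M) := ⟨Nat.mul_ne_zero (NeZero.ne N) (by positivity)⟩
  have : (H527.L3.Gs N M).FiniteIndex := Subgroup.finiteIndex_of_le (Gamma_le_Gs N M)
  have : NeZero (2 ^ n) := ⟨by positivity⟩
  have h : Finite (H527.L3.Gs N M →* Multiplicative (ZMod (2 ^ n))) :=
    H908.GM.finite_char (H527.L3.Gs N M) _
  exact Finite.of_injective (fun φ : V N M n => H527.L3.toH φ) fun φ ψ h => H527.L3.toH_inj h

/-- the third literal of chapter G -/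
theorem finV : FinVStmt := fun M n => finite_V 3 M n

end Vale.Agent.P022.H619.L3
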